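import Vale.Agent.P296.Final

/-!
# P296 (H599): convex Finsler metrics and finite coverings, definitions used in the statement
-/

namespace Vale.Agent.P296.H599

open Final

section

variable {V : Type} [NormedAddCommGroup V] [NormedSpace ℂ V] {Λ : Set V} {r : ℕ} {E : Bundle Λ r}

/-- The metric `F` of `O(-1)` over `ℙ(E)` is negatively curved (so `O(1)` is positively curved, as in
`Bundle.IsAmple`): `i∂∂̄ log F > 0` in all directions which are not tangent to the lines `ℂ u`. -/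
def Positive (F : DualFinsler E) : Prop :=
  ∀ i, ∀ z ∈ E.U i, ∀ u ≠ 0, ∀ ξ w, ¬ (ξ = 0 ∧ ∃ c : ℂ, w = c • u) →
    0 < (levi (fun p => (Real.log (F.F i p) : ℂ)) (ξ, w) (z, u)).re

/-- `√F` is a norm on every fibre of the dual bundle (the unit balls are convex). -/
def Convex (F : DualFinsler E) : Prop :=
  ∀ i, ∀ z ∈ E.U i, ∀ u v, u ≠ 0 → v ≠ 0 → u + v ≠ 0 →
    √(F.F i (z, u + v)) ≤ √(F.F i (z, u)) + √(F.F i (z, v))

end

theorem gauss_add {l m : ℂ × ℂ} (hl : l ∈ gauss) (hm : m ∈ gauss) : l + m ∈ gauss := by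
  obtain ⟨a, b, c, d, rfl⟩ := hl
  obtain ⟨a', b', c', d', rfl⟩ := hm
  refine ⟨a + a', b + b', c + c', d + d', Prod.ext ?_ ?_⟩ <;> push_cast <;>
    simp only [Prod.fst_add, Prod.snd_add] <;> ring

theorem gauss_sub {l m : ℂ × ℂ} (hl : l ∈ gauss) (hm : m ∈ gauss) : l - m ∈ gauss := by
  obtain ⟨a, b, c, d, rfl⟩ := hl
  obtain ⟨a', b', c', d', rfl⟩ := hm
  refine ⟨a - a', b - b', c - c', d - d', Prod.ext ?_ ?_⟩ <;> push_cast <;>
    simp only [Prod.fst_sub, Prod.snd_sub] <;> ring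

/-- The pullback of `E` along the covering `(ℂ × ℂ)/L → (ℂ × ℂ)/ℤ[i]²`, `L ⊆ ℤ[i]²`: over
`U i - m`, `m ∈ ℤ[i]²`, it has the trivialisation of `E` over `U i` (at `z + m`, the same point of
`(ℂ × ℂ)/ℤ[i]²` as `z`). -/
def pull {r : ℕ} (E : Bundle gauss r) (L : AddSubgroup (ℂ × ℂ)) (hL : ∀ l ∈ L, l ∈ gauss) :
    Bundle (L : Set (ℂ × ℂ)) r where
  ι := E.ι × {m : ℂ × ℂ // m ∈ gauss}
  U i := {z | z + i.2 ∈ E.U i.1}
  isOpen_U i := (E.isOpen_U i.1).preimage (continuous_add_const (i.2 : ℂ × ℂ))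
  cover z := by
    obtain ⟨i, l, hl, h⟩ := E.cover z
    exact ⟨(i, ⟨l, hl⟩), 0, L.zero_mem, by simpa using h⟩
  g i j l z := E.g i.1 j.1 (l + i.2 - j.2) (z + j.2)
  holo := by
    rintro ⟨i, m⟩ ⟨j, n⟩ l hl a b
    have h := E.holo i j (l + m - n) (gauss_sub (gauss_add (hL l hl) m.2) n.2) a b
    refine DifferentiableOn.comp (g := fun z => E.g i j (l + m - n) z a b) (f := fun z => z + n.1)
      h (by fun_prop) ?_
    intro z hz
    refine ⟨hz.1, ?_⟩
    have e : z + n.1 + (l + m.1 - n.1) = z + l + m.1 := by abel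
    rw [e]
    exact hz.2
  g_self := by
    rintro ⟨i, m⟩ z hz
    simp only [zero_add, sub_self]
    exact E.g_self i _ hz
  cocycle := by
    rintro ⟨i, m⟩ ⟨j, n⟩ ⟨k, p⟩ l hl l' hl' z hz h1 h2
    have e1 : z + p.1 + (l' + n.1 - p.1) = z + l' + n.1 := by abel
    have e2 : z + p.1 + (l' + n.1 - p.1) + (l + m.1 - n.1) = z + l' + l + m.1 := by abel
    have e3 : l + m.1 - n.1 + (l' + n.1 - p.1) = l + l' + m.1 - p.1 := by abel
    have h := E.cocycle i j k (l + m - n) (gauss_sub (gauss_add (hL l hl) m.2) n.2)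
      (l' + n - p) (gauss_sub (gauss_add (hL l' hl') n.2) p.2) (z + p) hz
      (by rw [e1]; exact h1) (by rw [e2]; exact h2)
    rw [e1, e3] at h
    exact h

end Vale.Agent.P296.H599
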