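import Vale.Agent.P296.H599.NF
import Vale.Agent.P296.H599.Defs

/-!
# P296 (H599): from norms on a finite covering to norms on the torus (maximum over the fibres)
-/

namespace Vale.Agent.P296.H599

open Complex Matrix Theta Filter Topology Glue Transfer
open scoped ContDiff ComplexOrder

/-- the points of the lattice -/
abbrev GI := {m : ℂ × ℂ // m ∈ Final.gauss}

/-- a family of norms on the pullback to the covering by `(ℂ × ℂ)/L`; `P i m z u` is the norm of `u`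
in the chart `(i, m)` at the point `z - m` -/
structure PFam (ε : ℝ) (L : AddSubgroup (ℂ × ℂ)) where
  P : Fin 3 → GI → (Fin 2 → ℂ) → (Fin 2 → ℂ) → ℝ
  cont : ∀ i m, ContinuousOn (fun p : (Fin 2 → ℂ) × (Fin 2 → ℂ) => P i m p.1 p.2)
    {p | p.1 ∈ Uset i}
  add : ∀ i m, ∀ z ∈ Uset i, ∀ u v, P i m z (u + v) ≤ P i m z u + P i m z v
  smul : ∀ i m, ∀ z ∈ Uset i, ∀ (c : ℂ) u, P i m z (c • u) = ‖c‖ * P i m z u
  pos : ∀ i m, ∀ z ∈ Uset i, ∀ u, u ≠ 0 → 0 < P i m z u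
  compat : ∀ i j (m n : GI), ∀ d ∈ gaussLattice 2, ee.symm d - m + n ∈ L →
    ∀ z ∈ Uset j, z + d ∈ Uset i → ∀ u, P j n z (u ᵥ* gmat ε i j d z) = P i m (z + d) u
  nlm : ∀ i m, ∀ z ∈ Uset i, ∀ (ξ : Fin 2 → ℂ) (u : ℂ → Fin 2 → ℂ), ξ ≠ 0 →
    (∀ a, AnalyticAt ℂ (fun ζ => u ζ a) 0) → u 0 ≠ 0 →
    ¬ IsLocalMax (fun ζ : ℂ => P i m (z + ζ • ξ) (u ζ)) 0

variable {ε : ℝ} {L : AddSubgroup (ℂ × ℂ)}

theorem symm_mem {l : Fin 2 → ℂ} (hl : l ∈ gaussLattice 2) : ee.symm l ∈ Final.gauss := by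
  rw [mem_gauss, ee.apply_symm_apply]
  exact hl

/-- the maximum over the points of the fibre -/
noncomputable def PFam.toN (H : PFam ε L) (S : Finset GI) (hS : S.Nonempty)
    (hrep : ∀ m ∈ Final.gauss, ∃ s ∈ S, m - (s : GI).1 ∈ L) : NFam ε where
  N i z u := S.sup' hS fun s => H.P i s z u
  cont i := ContinuousOn.finset_sup'_apply hS fun s _ => H.cont i s
  add i z hz u v := by
    refine Finset.sup'_le _ _ fun s hs => (H.add i s z hz u v).trans (add_le_add ?_ ?_)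
    · exact Finset.le_sup' (fun s => H.P i s z u) hs
    · exact Finset.le_sup' (fun s => H.P i s z v) hs
  smul i z hz c u := by
    apply le_antisymm
    · refine Finset.sup'_le _ _ fun s hs => ?_
      rw [H.smul i s z hz]
      exact mul_le_mul_of_nonneg_left (Finset.le_sup' (fun s => H.P i s z u) hs) (norm_nonneg _)
    · obtain ⟨s, hs, h⟩ := Finset.exists_mem_eq_sup' hS fun s => H.P i s z u
      rw [h, ← H.smul i s z hz]
      exact Finset.le_sup' (fun s => H.P i s z (c • u)) hs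
  pos i z hz u hu := by
    obtain ⟨s, hs⟩ := hS
    exact (H.pos i s z hz u hu).trans_le (Finset.le_sup' (fun s => H.P i s z u) hs)
  compat i j l hl z hz hzl u := by
    apply le_antisymm
    · refine Finset.sup'_le _ _ fun s hs => ?_
      obtain ⟨s', hs', h⟩ := hrep (s.1 + ee.symm l) (gauss_add s.2 (symm_mem hl))
      rw [H.compat i j s' s l hl (by
        have : ee.symm l - s'.1 + s.1 = s.1 + ee.symm l - s'.1 := by abel
        rw [this]
        exact h) z hz hzl u]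
      exact Finset.le_sup' (fun s => H.P i s (z + l) u) hs'
    · refine Finset.sup'_le _ _ fun s hs => ?_
      obtain ⟨s', hs', h⟩ := hrep (s.1 - ee.symm l) (gauss_sub s.2 (symm_mem hl))
      rw [← H.compat i j s s' l hl (by
        have : ee.symm l - s.1 + s'.1 = -(s.1 - ee.symm l - s'.1) := by abel
        rw [this]
        exact L.neg_mem h) z hz hzl u]
      exact Finset.le_sup' (fun s => H.P j s z (u ᵥ* gmat ε i j l z)) hs'
  nlm i z hz ξ u hξ hu hu0 hmax := by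
    obtain ⟨s, hs, h⟩ := Finset.exists_mem_eq_sup' hS fun s => H.P i s (z + (0 : ℂ) • ξ) (u 0)
    refine H.nlm i s z hz ξ u hξ hu hu0 ?_
    filter_upwards [hmax] with ζ hζ
    rw [← h]
    exact (Finset.le_sup' (fun s => H.P i s (z + ζ • ξ) (u ζ)) hs).trans hζ

/-- finitely many representatives -/
theorem exists_reps (hm : ∃ k : ℕ, k ≠ 0 ∧ ∀ z ∈ Final.gauss, k • z ∈ L) :
    ∃ S : Finset GI, S.Nonempty ∧ ∀ m ∈ Final.gauss, ∃ s ∈ S, m - (s : GI).1 ∈ L := by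
  obtain ⟨k, hk, h⟩ := hm
  let f : Fin k × Fin k × Fin k × Fin k → GI := fun x =>
    ⟨((x.1.1 : ℂ) + (x.2.1.1 : ℂ) * I, (x.2.2.1.1 : ℂ) + (x.2.2.2.1 : ℂ) * I),
      ⟨x.1.1, x.2.1.1, x.2.2.1.1, x.2.2.2.1, by push_cast; rfl⟩⟩
  have h0 : 0 < k := Nat.pos_of_ne_zero hk
  refine ⟨Finset.univ.image f, ⟨f (⟨0, h0⟩, ⟨0, h0⟩, ⟨0, h0⟩, ⟨0, h0⟩), by simp⟩, ?_⟩
  rintro m ⟨a, b, c, d, rfl⟩
  have hk' : (k : ℤ) ≠ 0 := by exact_mod_cast hk
  have key : ∀ a : ℤ, ∃ (r : Fin k) (q : ℤ), a = r.1 + k * q := fun a =>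
    ⟨⟨(a % k).toNat, by
      have := Int.emod_lt_of_pos a (show (0 : ℤ) < k by exact_mod_cast h0)
      have := Int.emod_nonneg a hk'
      omega⟩, a / k, by
      have := Int.emod_nonneg a hk'
      have h2 := Int.emod_add_mul_ediv a k
      simp only [Int.toNat_of_nonneg this]
      exact h2.symm⟩
  obtain ⟨r1, q1, e1⟩ := key a
  obtain ⟨r2, q2, e2⟩ := key b
  obtain ⟨r3, q3, e3⟩ := key c
  obtain ⟨r4, q4, e4⟩ := key d
  refine ⟨f (r1, r2, r3, r4), by simp, ?_⟩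
  have h1 := h ((q1 : ℂ) + (q2 : ℂ) * I, (q3 : ℂ) + (q4 : ℂ) * I) ⟨q1, q2, q3, q4, rfl⟩
  convert h1 using 1
  rw [e1, e2, e3, e4, Prod.smul_mk, nsmul_eq_mul, nsmul_eq_mul]
  refine Prod.ext ?_ ?_
  · simp only [f, Prod.fst_sub]
    push_cast
    ring
  · simp only [f, Prod.snd_sub]
    push_cast
    ring

/-- there is no such family on a finite covering -/
theorem no_pfam : ∃ ε₀ : ℝ, 0 < ε₀ ∧ ∀ ε : ℝ, 0 < ε → ε ≤ ε₀ → ∀ L : AddSubgroup (ℂ × ℂ),
    (∃ k : ℕ, k ≠ 0 ∧ ∀ z ∈ Final.gauss, k • z ∈ L) → PFam ε L → False := by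
  obtain ⟨ε₀, h0, h⟩ := no_nfam
  refine ⟨ε₀, h0, fun ε h1 h2 L hL H => ?_⟩
  obtain ⟨S, hS, hrep⟩ := exists_reps hL
  exact h ε h1 h2 (H.toN S hS hrep)

end Vale.Agent.P296.H599
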