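import Vale.Agent.P296.H599.Defs

/-!
# P296 (H599): pullback of metrics
-/

namespace Vale.Agent.P296.H599

open Final
open scoped ContDiff

section transl

variable {V : Type} [NormedAddCommGroup V] [NormedSpace ℂ V]

theorem delbar_transl (f : V → ℂ) (a ξ : V) :
    delbar (fun p => f (p + a)) ξ = fun p => delbar f ξ (p + a) := by
  funext z
  simp only [delbar, fderiv_comp_add_right]

theorem del_transl (f : V → ℂ) (a ξ z : V) :
    del (fun p => f (p + a)) ξ z = del f ξ (z + a) := by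
  simp only [del, fderiv_comp_add_right]

theorem levi_transl (f : V → ℂ) (a ξ z : V) :
    levi (fun p => f (p + a)) ξ z = levi f ξ (z + a) := by
  unfold levi
  rw [delbar_transl, del_transl]

end transl

variable {r : ℕ} {E : Bundle gauss r} (L : AddSubgroup (ℂ × ℂ)) (hL : ∀ l ∈ L, l ∈ gauss)

/-- the pullback of a Finsler metric -/
noncomputable def pullF (F : DualFinsler E) : DualFinsler (pull E L hL) where
  F i p := F.F i.1 (p.1 + i.2, p.2)
  smooth := by
    rintro ⟨i, m⟩
    refine ContDiffOn.comp (g := fun p => ((F.F i p : ℝ) : ℂ))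
      (f := fun p : (ℂ × ℂ) × (Fin r → ℂ) => (p.1 + m.1, p.2)) (F.smooth i) ?_ ?_
    · fun_prop
    · intro p hp
      exact hp
  pos := fun i z hz u hu => F.pos i.1 (z + i.2) hz u hu
  homog := fun i z hz u hu t ht => F.homog i.1 (z + i.2) hz u hu t ht
  compat := by
    rintro ⟨i, m⟩ ⟨j, n⟩ l hl z hz hzl u hu
    have e1 : z + n.1 + (l + m.1 - n.1) = z + l + m.1 := by abel
    have h := F.compat i j (l + m - n) (gauss_sub (gauss_add (hL l hl) m.2) n.2) (z + n) hz
      (by rw [e1]; exact hzl) u hu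
    rw [e1] at h
    exact h

theorem pullF_positive {F : DualFinsler E} (hF : Positive F) : Positive (pullF L hL F) := by
  rintro ⟨i, m⟩ z hz u hu ξ w hw
  have h := hF i (z + m) hz u hu ξ w hw
  have h2 := levi_transl (fun p : (ℂ × ℂ) × (Fin r → ℂ) => ((Real.log (F.F i p) : ℝ) : ℂ))
    ((m.1, 0) : (ℂ × ℂ) × (Fin r → ℂ)) (ξ, w) (z, u)
  have e : ((z, u) : (ℂ × ℂ) × (Fin r → ℂ)) + (m.1, 0) = (z + m.1, u) := by simp
  rw [e] at h2
  rw [← h2] at h
  have e3 : (fun p : (ℂ × ℂ) × (Fin r → ℂ) => ((Real.log (F.F i (p + (m.1, 0))) : ℝ) : ℂ)) =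
      fun p => ((Real.log ((pullF L hL F).F (i, m) p) : ℝ) : ℂ) := by
    funext p
    have : p + (m.1, 0) = (p.1 + m.1, p.2) := Prod.ext rfl (add_zero _)
    rw [this]
    rfl
  rw [e3] at h
  exact h

theorem pullF_convex {F : DualFinsler E} (hF : Convex F) : Convex (pullF L hL F) :=
  fun i z hz u v hu hv huv => hF i.1 (z + i.2) hz u v hu hv huv

theorem pull_isAmple (hE : E.IsAmple) : (pull E L hL).IsAmple := by
  obtain ⟨F, hF⟩ := hE
  exact ⟨pullF L hL F, pullF_positive L hL hF⟩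

end Vale.Agent.P296.H599
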