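import Vale.Agent.P296.H599.Max
import Vale.Agent.P296.H599.Pull

/-!
# P296 (H599): norms from convex Finsler metrics and from Hermitian metrics
-/

namespace Vale.Agent.P296.H599

open Complex Matrix Theta Filter Topology Glue Transfer
open scoped ContDiff ComplexOrder

variable {ε : ℝ} {hε : 0 < ε} {L : AddSubgroup (ℂ × ℂ)} {hL : ∀ l ∈ L, l ∈ Final.gauss}

theorem mem_chart {i : Fin 3} (m : GI) {z : Fin 2 → ℂ} (hz : z ∈ Uset i) :
    ee.symm z - m ∈ (pull (toFinal (bundle ε hε)) L hL).U (i, m) := by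
  change ee (ee.symm z - m + m) ∈ Uset i
  rw [sub_add_cancel, ee.apply_symm_apply]
  exact hz

theorem trans_eq (i j : Fin 3) (m n : GI) (d z : Fin 2 → ℂ) :
    (pull (toFinal (bundle ε hε)) L hL).g (i, m) (j, n) (ee.symm d - m + n) (ee.symm z - n) =
      gmat ε i j d z := by
  change gmat ε i j (ee (ee.symm d - m + n + m - n)) (ee (ee.symm z - n + n)) = _
  have e1 : ee.symm d - m.1 + n.1 + m.1 - n.1 = ee.symm d := by abel
  rw [e1, sub_add_cancel, ee.apply_symm_apply, ee.apply_symm_apply]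

section finsler

variable (F : Final.DualFinsler (pull (toFinal (bundle ε hε)) L hL))

/-- the norm -/
noncomputable def PF (i : Fin 3) (m : GI) (z u : Fin 2 → ℂ) : ℝ :=
  open Classical in if u = 0 then 0 else √(F.F (i, m) (ee.symm z - m, u))

theorem PF_zero (i : Fin 3) (m : GI) (z : Fin 2 → ℂ) : PF F i m z 0 = 0 := if_pos rfl

theorem PF_ne {u : Fin 2 → ℂ} (hu : u ≠ 0) (i : Fin 3) (m : GI) (z : Fin 2 → ℂ) :
    PF F i m z u = √(F.F (i, m) (ee.symm z - m, u)) := if_neg hu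

theorem PF_pos {i : Fin 3} (m : GI) {z : Fin 2 → ℂ} (hz : z ∈ Uset i) {u : Fin 2 → ℂ}
    (hu : u ≠ 0) : 0 < PF F i m z u := by
  rw [PF_ne F hu]
  exact Real.sqrt_pos.2 (F.pos (i, m) _ (mem_chart m hz) u hu)

theorem PF_nonneg (i : Fin 3) (m : GI) (z u : Fin 2 → ℂ) : 0 ≤ PF F i m z u := by
  unfold PF
  split_ifs
  · exact le_rfl
  · exact Real.sqrt_nonneg _

theorem PF_smul {i : Fin 3} (m : GI) {z : Fin 2 → ℂ} (hz : z ∈ Uset i) (c : ℂ)
    (u : Fin 2 → ℂ) : PF F i m z (c • u) = ‖c‖ * PF F i m z u := by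
  by_cases hu : u = 0
  · subst hu
    rw [smul_zero, PF_zero, mul_zero]
  by_cases hc : c = 0
  · subst hc
    rw [zero_smul, PF_zero, norm_zero, zero_mul]
  rw [PF_ne F (smul_ne_zero hc hu), PF_ne F hu, F.homog (i, m) _ (mem_chart m hz) u hu c hc,
    Real.sqrt_mul (by positivity), Real.sqrt_sq (norm_nonneg _)]

theorem PF_add (hF : Convex F) {i : Fin 3} (m : GI) {z : Fin 2 → ℂ} (hz : z ∈ Uset i)
    (u v : Fin 2 → ℂ) : PF F i m z (u + v) ≤ PF F i m z u + PF F i m z v := by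
  by_cases hu : u = 0
  · subst hu
    rw [zero_add, PF_zero, zero_add]
  by_cases hv : v = 0
  · subst hv
    rw [add_zero, PF_zero, add_zero]
  by_cases huv : u + v = 0
  · rw [huv, PF_zero]
    exact add_nonneg (PF_nonneg F _ _ _ _) (PF_nonneg F _ _ _ _)
  rw [PF_ne F hu, PF_ne F hv, PF_ne F huv]
  exact hF (i, m) _ (mem_chart m hz) u v hu hv huv

theorem contDiffAt_F {i : Fin 3} (m : GI) {z : Fin 2 → ℂ} (hz : z ∈ Uset i) {u : Fin 2 → ℂ}
    (hu : u ≠ 0) : ContDiffAt ℝ ∞ (F.F (i, m)) (ee.symm z - m.1, u) := by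
  have hopen : IsOpen {p : (ℂ × ℂ) × (Fin 2 → ℂ) |
      p.1 ∈ (pull (toFinal (bundle ε hε)) L hL).U (i, m) ∧ p.2 ≠ 0} :=
    (((pull (toFinal (bundle ε hε)) L hL).isOpen_U (i, m)).preimage continuous_fst).inter
      (isOpen_ne.preimage continuous_snd)
  have h1 : ContDiffAt ℝ ∞ (fun p => ((F.F (i, m) p : ℝ) : ℂ)) (ee.symm z - m.1, u) :=
    (F.smooth (i, m)).contDiffAt (hopen.mem_nhds ⟨mem_chart m hz, hu⟩)
  exact reCLM.contDiff.contDiffAt.comp _ h1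

theorem continuousAt_PF {i : Fin 3} (m : GI) {z : Fin 2 → ℂ} (hz : z ∈ Uset i)
    {u : Fin 2 → ℂ} (hu : u ≠ 0) :
    ContinuousAt (fun p : (Fin 2 → ℂ) × (Fin 2 → ℂ) => PF F i m p.1 p.2) (z, u) := by
  have h1 : ContinuousAt (fun p : (Fin 2 → ℂ) × (Fin 2 → ℂ) =>
      √(F.F (i, m) (ee.symm p.1 - m, p.2))) (z, u) := by
    apply Real.continuous_sqrt.continuousAt.comp
    have h2 : ContinuousAt (fun p : (Fin 2 → ℂ) × (Fin 2 → ℂ) =>
        ((ee.symm p.1 - m.1, p.2) : (ℂ × ℂ) × (Fin 2 → ℂ))) (z, u) := by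
      have : Continuous (fun p : (Fin 2 → ℂ) × (Fin 2 → ℂ) =>
        ((ee.symm p.1 - m.1, p.2) : (ℂ × ℂ) × (Fin 2 → ℂ))) :=
        (((ee.symm.continuous.comp continuous_fst).sub continuous_const).prodMk continuous_snd)
      exact this.continuousAt
    exact ContinuousAt.comp (g := F.F (i, m)) (contDiffAt_F F m hz hu).continuousAt h2
  refine h1.congr ?_
  have : ∀ᶠ p : (Fin 2 → ℂ) × (Fin 2 → ℂ) in 𝓝 (z, u), p.2 ≠ 0 :=
    ContinuousAt.eventually_ne continuous_snd.continuousAt hu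
  filter_upwards [this] with p hp
  rw [PF_ne F hp]

theorem continuousOn_PF (hF : Convex F) (i : Fin 3) (m : GI) :
    ContinuousOn (fun p : (Fin 2 → ℂ) × (Fin 2 → ℂ) => PF F i m p.1 p.2)
      {p | p.1 ∈ Uset i} := by
  rintro ⟨z, u⟩ hz
  refine ContinuousAt.continuousWithinAt ?_
  change z ∈ Uset i at hz
  by_cases hu : u = 0
  swap
  · exact continuousAt_PF F m hz hu
  subst hu
  have hb : ∀ᶠ p : (Fin 2 → ℂ) × (Fin 2 → ℂ) in 𝓝 (z, 0), p.1 ∈ Uset i :=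
    continuous_fst.continuousAt.eventually ((Bdl.isOpen_Uset i).mem_nhds hz)
  have hc : ∀ k : Fin 2, ContinuousAt (fun p : (Fin 2 → ℂ) × (Fin 2 → ℂ) =>
      ‖p.2 k‖ * PF F i m p.1 (Pi.single k 1)) (z, 0) := by
    intro k
    have hk : (Pi.single k 1 : Fin 2 → ℂ) ≠ 0 := by
      intro h
      have := congrFun h k
      simp at this
    refine ContinuousAt.mul (by fun_prop) ?_
    exact ContinuousAt.comp (g := fun p : (Fin 2 → ℂ) × (Fin 2 → ℂ) => PF F i m p.1 p.2)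
      (f := fun p : (Fin 2 → ℂ) × (Fin 2 → ℂ) => (p.1, (Pi.single k 1 : Fin 2 → ℂ)))
      (x := (z, 0)) (continuousAt_PF F m hz hk) (by fun_prop)
  have hs : Tendsto (fun p : (Fin 2 → ℂ) × (Fin 2 → ℂ) =>
      ‖p.2 0‖ * PF F i m p.1 (Pi.single 0 1) + ‖p.2 1‖ * PF F i m p.1 (Pi.single 1 1))
      (𝓝 (z, 0)) (𝓝 0) := by
    have h0 : ContinuousAt (fun p : (Fin 2 → ℂ) × (Fin 2 → ℂ) =>
        ‖p.2 0‖ * PF F i m p.1 (Pi.single 0 1) + ‖p.2 1‖ * PF F i m p.1 (Pi.single 1 1))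
        (z, 0) := (hc 0).add (hc 1)
    have h1 := h0.tendsto
    simpa using h1
  change Tendsto _ _ (𝓝 (PF F i m z 0))
  rw [PF_zero]
  refine squeeze_zero' (Eventually.of_forall fun p => PF_nonneg F _ _ _ _) ?_ hs
  filter_upwards [hb] with p hp
  have e : p.2 = p.2 0 • (Pi.single 0 1 : Fin 2 → ℂ) + p.2 1 • (Pi.single 1 1 : Fin 2 → ℂ) := by
    ext k
    fin_cases k <;> simp
  calc PF F i m p.1 p.2 = PF F i m p.1 (p.2 0 • (Pi.single 0 1 : Fin 2 → ℂ) +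
        p.2 1 • (Pi.single 1 1 : Fin 2 → ℂ)) := by rw [← e]
    _ ≤ _ := PF_add F hF m hp _ _
    _ = _ := by rw [PF_smul F m hp, PF_smul F m hp]

theorem PF_compat (i j : Fin 3) (m n : GI) {d : Fin 2 → ℂ} (hd : d ∈ gaussLattice 2)
    (hl : ee.symm d - m + n ∈ L) {z : Fin 2 → ℂ} (hz : z ∈ Uset j) (hzd : z + d ∈ Uset i)
    (u : Fin 2 → ℂ) : PF F j n z (u ᵥ* gmat ε i j d z) = PF F i m (z + d) u := by
  have hg := isUnit_gmat hε i j hd hz hzd
  by_cases hu : u = 0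
  · subst hu
    rw [Matrix.zero_vecMul, PF_zero, PF_zero]
  have hu' : u ᵥ* gmat ε i j d z ≠ 0 := by
    intro h
    apply hu
    have h2 : u ᵥ* gmat ε i j d z ᵥ* (gmat ε i j d z)⁻¹ = u := by
      rw [Matrix.vecMul_vecMul, Matrix.mul_nonsing_inv _ ((Matrix.isUnit_iff_isUnit_det _).1 hg),
        Matrix.vecMul_one]
    rw [← h2, h, Matrix.zero_vecMul]
  rw [PF_ne F hu, PF_ne F hu']
  have e1 : ee.symm z - n.1 + (ee.symm d - m.1 + n.1) = ee.symm (z + d) - m.1 := by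
    rw [map_add]
    abel
  have h := F.compat (i, m) (j, n) (ee.symm d - m + n) hl (ee.symm z - n) (mem_chart n hz)
    (by rw [e1]; exact mem_chart m hzd) u hu
  rw [trans_eq, e1] at h
  rw [h]

theorem PF_nlm (hF : Positive F) {i : Fin 3} (m : GI) {z : Fin 2 → ℂ} (hz : z ∈ Uset i)
    (ξ : Fin 2 → ℂ) (u : ℂ → Fin 2 → ℂ) (hξ : ξ ≠ 0) (hu : ∀ a, AnalyticAt ℂ (fun ζ => u ζ a) 0)
    (hu0 : u 0 ≠ 0) : ¬ IsLocalMax (fun ζ : ℂ => PF F i m (z + ζ • ξ) (u ζ)) 0 := by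
  intro hmax
  have hua : AnalyticAt ℂ u 0 := analyticAt_pi_iff.2 hu
  set Θ : ℂ → (ℂ × ℂ) × (Fin 2 → ℂ) := fun ζ => (ee.symm (z + ζ • ξ) - m.1, u ζ) with hΘ
  have hΘa : ContDiffAt ℂ 2 Θ 0 := by
    refine ContDiffAt.prodMk ?_ hua.contDiffAt
    have h1 : ContDiff ℂ 2 (fun ζ : ℂ => ee.symm (z + ζ • ξ) - m.1) :=
      (ee.symm.contDiff.comp (by fun_prop)).sub contDiff_const
    exact h1.contDiffAt
  have hΘ0 : Θ 0 = (ee.symm z - m.1, u 0) := by simp [hΘ]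
  have hd : fderiv ℂ Θ 0 1 = (ee.symm ξ, deriv u 0) := by
    have h1 : HasDerivAt (fun ζ : ℂ => ee.symm (z + ζ • ξ) - m.1) (ee.symm ξ) 0 := by
      have h2 : HasDerivAt (fun ζ : ℂ => z + ζ • ξ) ξ 0 := by
        simpa using ((hasDerivAt_id (0 : ℂ)).smul_const ξ).const_add z
      have h3 : HasFDerivAt (ee.symm : (Fin 2 → ℂ) → ℂ × ℂ)
          (ee.symm : (Fin 2 → ℂ) →L[ℂ] ℂ × ℂ) (z + (0 : ℂ) • ξ) := ee.symm.hasFDerivAt
      exact (h3.comp_hasDerivAt (0 : ℂ) h2).sub_const _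
    have h2 : HasDerivAt u (deriv u 0) 0 := hua.differentiableAt.hasDerivAt
    have h3 : HasDerivAt Θ (ee.symm ξ, deriv u 0) 0 := h1.prodMk h2
    rw [← h3.deriv]
    exact fderiv_apply_one_eq_deriv
  have hlog : ContDiffAt ℝ 2 (fun p => Real.log (F.F (i, m) p)) (Θ 0) := by
    rw [hΘ0]
    exact ((contDiffAt_F F m hz hu0).of_le (by norm_cast)).log
      (F.pos (i, m) _ (mem_chart m hz) _ hu0).ne'
  have hpos : 0 < levi (fun ζ : ℂ => Real.log (F.F (i, m) (Θ ζ))) 0 1 := by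
    rw [levi_comp_hol (f := fun p => Real.log (F.F (i, m) p)) hlog hΘa, hd]
    have h1 := hF (i, m) _ (mem_chart m hz) _ hu0 (ee.symm ξ) (deriv u 0)
      (fun h => hξ (by simpa using h.1))
    have h2 := final_levi_ofReal (f := fun p => Real.log (F.F (i, m) p)) hlog
      (ee.symm ξ, deriv u 0)
    rw [hΘ0] at h2 ⊢
    rw [h2, ofReal_re] at h1
    exact h1
  have hcomp : ContDiffAt ℝ 2 (fun ζ : ℂ => Real.log (F.F (i, m) (Θ ζ))) 0 :=
    ContDiffAt.comp (0 : ℂ) (g := fun p => Real.log (F.F (i, m) p)) hlog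
      (hΘa.restrict_scalars ℝ)
  have hmin : IsLocalMin (fun ζ : ℂ => -Real.log (F.F (i, m) (Θ ζ))) 0 := by
    have hz' : ∀ᶠ ζ : ℂ in 𝓝 0, z + ζ • ξ ∈ Uset i := by
      have hc : ContinuousAt (fun ζ : ℂ => z + ζ • ξ) 0 := by fun_prop
      refine hc.eventually ((Bdl.isOpen_Uset i).mem_nhds ?_)
      simpa using hz
    have hu' : ∀ᶠ ζ : ℂ in 𝓝 0, u ζ ≠ 0 :=
      ContinuousAt.eventually_ne hua.continuousAt hu0
    filter_upwards [hmax, hz', hu'] with ζ h1 h2 h3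
    rw [PF_ne F h3, PF_ne F hu0] at h1
    have p1 := F.pos (i, m) _ (mem_chart m h2) _ h3
    have hz0 : z + (0 : ℂ) • ξ ∈ Uset i := by simpa using hz
    have p2 := F.pos (i, m) _ (mem_chart m hz0) _ hu0
    exact neg_le_neg (Real.log_le_log p1 ((Real.sqrt_le_sqrt_iff p2.le).1 h1))
  have h1 := LC.levi_nonneg_of_isLocalMin (f := fun ζ : ℂ => -Real.log (F.F (i, m) (Θ ζ)))
    (1 : ℂ) hcomp.neg hmin
  have h2 : levi (fun ζ : ℂ => -Real.log (F.F (i, m) (Θ ζ))) 0 1 =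
      -levi (fun ζ : ℂ => Real.log (F.F (i, m) (Θ ζ))) 0 1 :=
    LC.levi_clm (-(ContinuousLinearMap.id ℝ ℝ)) (1 : ℂ) hcomp
  rw [h2] at h1
  linarith

/-- the family of norms of a positive convex Finsler metric -/
noncomputable def famF (hp : Positive F) (hc : Convex F) : PFam ε L where
  P := PF F
  cont := continuousOn_PF F hc
  add _ m _ hz u v := PF_add F hc m hz u v
  smul _ m _ hz c u := PF_smul F m hz c u
  pos _ m _ hz _ hu := PF_pos F m hz hu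
  compat i j m n _ hd hl _ hz hzd u := PF_compat F i j m n hd hl hz hzd u
  nlm _ m _ hz ξ u hξ hu hu0 := PF_nlm F hp m hz ξ u hξ hu hu0

end finsler

end Vale.Agent.P296.H599
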