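import Vale.Agent.P296.H599.Met

/-!
# P296 (H599): norms from Hermitian metrics with Griffiths positive curvature
-/

namespace Vale.Agent.P296.H599

open Complex Matrix Theta Filter Topology Glue Transfer
open scoped ContDiff ComplexOrder

variable {ε : ℝ} {hε : 0 < ε} {L : AddSubgroup (ℂ × ℂ)} {hL : ∀ l ∈ L, l ∈ Final.gauss}

theorem continuousOn_dual {U : Set (Fin 2 → ℂ)} {h : (Fin 2 → ℂ) → Matrix (Fin 2) (Fin 2) ℂ}
    (hs : ∀ a b, ContDiffOn ℝ 2 (fun z => h z a b) U) (hp : ∀ z ∈ U, (h z).PosDef) :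
    ContinuousOn (fun p : (Fin 2 → ℂ) × (Fin 2 → ℂ) => dualNorm (h p.1) p.2) {p | p.1 ∈ U} := by
  have hentry : ∀ a b, ContinuousOn (fun p : (Fin 2 → ℂ) × (Fin 2 → ℂ) => h p.1 a b)
      {p | p.1 ∈ U} := fun a b =>
    (hs a b).continuousOn.comp continuousOn_fst fun p hp => hp
  have hdet : ContinuousOn (fun p : (Fin 2 → ℂ) × (Fin 2 → ℂ) => (h p.1).det⁻¹)
      {p | p.1 ∈ U} := by
    apply ContinuousOn.inv₀
    · simp only [Matrix.det_fin_two]
      exact ((hentry 0 0).mul (hentry 1 1)).sub ((hentry 0 1).mul (hentry 1 0))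
    · intro p hp'
      exact ((Matrix.isUnit_iff_isUnit_det _).mp (hp _ hp').isUnit).ne_zero
  have hinv : ∀ a b, ContinuousOn (fun p : (Fin 2 → ℂ) × (Fin 2 → ℂ) => (h p.1)⁻¹ a b)
      {p | p.1 ∈ U} := by
    intro a b
    have : ∀ p : (Fin 2 → ℂ) × (Fin 2 → ℂ), (h p.1)⁻¹ a b =
        (h p.1).det⁻¹ * (h p.1).adjugate a b := by
      intro p
      rw [Matrix.inv_def, Ring.inverse_eq_inv', Matrix.smul_apply, smul_eq_mul]
    simp only [this]
    refine hdet.mul ?_
    fin_cases a <;> fin_cases b <;> simp [Matrix.adjugate_fin_two]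
    · exact hentry 1 1
    · exact (hentry 0 1).neg
    · exact (hentry 1 0).neg
    · exact hentry 0 0
  unfold dualNorm
  have e : (fun p : (Fin 2 → ℂ) × (Fin 2 → ℂ) => (p.2 ⬝ᵥ ((h p.1)⁻¹ *ᵥ star p.2)).re) =
      fun p => (∑ a, p.2 a * ∑ b, (h p.1)⁻¹ a b * star (p.2 b)).re := rfl
  rw [e]
  refine Complex.continuous_re.comp_continuousOn ?_
  refine continuousOn_finsetSum _ fun a _ => ContinuousOn.mul (by clear * -; fun_prop) ?_
  refine continuousOn_finsetSum _ fun b _ => (hinv a b).mul ?_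
  fun_prop

section herm

variable (H : Final.Metric (pull (toFinal (bundle ε hε)) L hL))

/-- the Gram matrices -/
noncomputable def hh (i : Fin 3) (m : GI) (z : Fin 2 → ℂ) : Matrix (Fin 2) (Fin 2) ℂ :=
  H.h (i, m) (ee.symm z - m)

theorem hh_posDef {i : Fin 3} (m : GI) {z : Fin 2 → ℂ} (hz : z ∈ Uset i) :
    (hh H i m z).PosDef := H.posDef (i, m) _ (mem_chart m hz)

theorem hh_smooth (i : Fin 3) (m : GI) (a b : Fin 2) :
    ContDiffOn ℝ 2 (fun z => hh H i m z a b) (Uset i) := by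
  have h1 := (H.smooth (i, m) a b).of_le (show (2 : WithTop ℕ∞) ≤ ∞ by norm_cast)
  refine h1.comp (g := fun z => H.h (i, m) z a b) (f := fun z => ee.symm z - m.1) ?_ ?_
  · exact ((ee.symm.contDiff.restrict_scalars ℝ).sub contDiff_const).contDiffOn
  · intro z hz
    exact mem_chart m hz

theorem hh_curv (hG : H.GriffithsPositive) {i : Fin 3} (m : GI) {z : Fin 2 → ℂ}
    (hz : z ∈ Uset i) (ξ : Fin 2 → ℂ) (hξ : ξ ≠ 0) (v : Fin 2 → ℂ) (hv : v ≠ 0) :
    0 < (chernCurvature (hh H i m) z ξ v).re := by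
  have hz' := mem_chart (hε := hε) (L := L) (hL := hL) m hz
  have hsm : ∀ a b, ContDiffAt ℝ ∞ (fun w => H.h (i, m) w a b) (ee.symm z - m.1) := fun a b =>
    (H.smooth (i, m) a b).contDiffAt (((pull (toFinal (bundle ε hε)) L hL).isOpen_U (i, m)).mem_nhds hz')
  have hfd : HasFDerivAt (fun w : Fin 2 → ℂ => ee.symm w - m.1)
      (ee.symm : (Fin 2 → ℂ) →L[ℂ] (ℂ × ℂ)) z := ee.symm.hasFDerivAt.sub_const _
  have e1 : ∀ a b, levi (fun w => hh H i m w a b) z ξ =
      Final.levi (fun w => H.h (i, m) w a b) (ee.symm ξ) (ee.symm z - m.1) := by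
    intro a b
    have h2 : ContDiffAt ℝ 2 (fun w => H.h (i, m) w a b) (ee.symm z - m.1) :=
      (hsm a b).of_le (by norm_cast)
    rw [final_levi_eq h2]
    have := levi_comp_hol' (f := fun w => H.h (i, m) w a b) (Θ := fun w => ee.symm w - m.1)
      (p := z) h2 (ee.symm.contDiff.sub contDiff_const).contDiffAt ξ
    rw [hfd.fderiv] at this
    exact this
  have e2 : ∀ a b, dHol (fun w => hh H i m w a b) z ξ =
      Final.del (fun w => H.h (i, m) w a b) (ee.symm ξ) (ee.symm z - m.1) := by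
    intro a b
    have h2 : HasFDerivAt (fun w => H.h (i, m) w a b)
        (fderiv ℝ (fun w => H.h (i, m) w a b) (ee.symm z - m.1)) (ee.symm z - m.1) :=
      ((hsm a b).differentiableAt (by simp)).hasFDerivAt
    have h3 : HasFDerivAt (fun w : Fin 2 → ℂ => ee.symm w - m.1)
        ((ee.symm : (Fin 2 → ℂ) →L[ℂ] (ℂ × ℂ)).restrictScalars ℝ) z :=
      hfd.restrictScalars ℝ
    have h4 := h2.comp z h3
    have h5 : fderiv ℝ (fun w => hh H i m w a b) z = _ := h4.fderiv
    unfold dHol Final.del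
    rw [h5]
    simp only [ContinuousLinearMap.comp_apply, ContinuousLinearMap.coe_restrictScalars',
      ContinuousLinearEquiv.coe_coe, map_smul]
  have key : chernCurvature (hh H i m) z ξ v =
      Final.curvature (H.h (i, m)) (ee.symm z - m.1) (ee.symm ξ) v := by
    unfold chernCurvature Final.curvature
    simp only [e1, e2]
    rfl
  rw [key]
  exact hG (i, m) _ hz' _ (by simpa using hξ) v hv

/-- the family of norms of a Griffiths positive metric -/
noncomputable def famH (hG : H.GriffithsPositive) : PFam ε L where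
  P i m z u := √(dualNorm (hh H i m z) u)
  cont i m := Real.continuous_sqrt.comp_continuousOn
    (continuousOn_dual (hh_smooth H i m) fun _ hz => hh_posDef H m hz)
  add i m z hz u v := Curv.sqrt_dualNorm_add (hh_posDef H m hz) u v
  smul i m z _ c u := Curv.sqrt_dualNorm_smul _ c u
  pos i m z hz u hu := Real.sqrt_pos.2 (Curv.dualNorm_pos (hh_posDef H m hz) hu)
  compat i j m n d hd hl z hz hzd u := by
    have e1 : ee.symm z - n.1 + (ee.symm d - m.1 + n.1) = ee.symm (z + d) - m.1 := by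
      rw [map_add]
      abel
    have h := H.compat (i, m) (j, n) (ee.symm d - m + n) hl (ee.symm z - n) (mem_chart n hz)
      (by rw [e1]; exact mem_chart m hzd)
    rw [trans_eq, e1] at h
    have h2 : hh H j n z = (gmat ε i j d z)ᴴ * hh H i m (z + d) * gmat ε i j d z := h
    rw [h2, Curv.dualNorm_compat (isUnit_gmat hε i j hd hz hzd)]
  nlm i m z hz ξ u hξ hu hu0 hmax := by
    refine Curv.nlm_of_curvature (Bdl.isOpen_Uset i) (fun a b => hh_smooth H i m a b)
      (fun _ hw => hh_posDef H m hw) hz (fun ξ hξ v hv => hh_curv H hG m hz ξ hξ v hv)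
      ξ u hξ hu hu0 (isLocalMax_of_sqrt ?_ hmax)
    simp only [zero_smul, add_zero]
    exact (Curv.dualNorm_pos (hh_posDef H m hz) hu0).le

end herm

/-- **The main theorem** -/
theorem main : ∃ E : Final.Bundle Final.gauss 2,
    (E.IsAmple ∧ ∀ H : Final.Metric E, ¬ H.GriffithsPositive) ∧
    (∀ F : Final.DualFinsler E, Positive F → ¬ Convex F) ∧
    ∀ (L : AddSubgroup (ℂ × ℂ)) (hL : ∀ l ∈ L, l ∈ Final.gauss),
      (∃ k : ℕ, k ≠ 0 ∧ ∀ z ∈ Final.gauss, k • z ∈ L) →
        (pull E L hL).IsAmple ∧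
        (∀ H : Final.Metric (pull E L hL), ¬ H.GriffithsPositive) ∧
        ∀ F : Final.DualFinsler (pull E L hL), Positive F → ¬ Convex F := by
  obtain ⟨ε, h0, h⟩ := no_pfam
  obtain ⟨ε', h0', h'⟩ := bundle_no_griffiths
  have hm : 0 < min ε ε' := lt_min h0 h0'
  have hamp := isAmple_toFinal (bundle (min ε ε') hm) (bundle_isAmple hm)
  have main2 : ∀ (L : AddSubgroup (ℂ × ℂ)) (hL : ∀ l ∈ L, l ∈ Final.gauss),
      (∃ k : ℕ, k ≠ 0 ∧ ∀ z ∈ Final.gauss, k • z ∈ L) →
        ∀ F : Final.DualFinsler (pull (toFinal (bundle (min ε ε') hm)) L hL),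
          Positive F → ¬ Convex F := fun L hL hk F hp hc =>
    h _ hm (min_le_left _ _) L hk (famF F hp hc)
  refine ⟨toFinal (bundle (min ε ε') hm), ⟨hamp, noGriffiths_toFinal _ fun H =>
    h' _ hm (min_le_right _ _) H⟩, ?_, fun L hL hk => ⟨pull_isAmple L hL hamp, ?_,
    main2 L hL hk⟩⟩
  · intro F hp hc
    let L : AddSubgroup (ℂ × ℂ) :=
      { carrier := Final.gauss
        zero_mem' := ⟨0, 0, 0, 0, by ext <;> simp⟩
        add_mem' := gauss_add
        neg_mem' := by
          intro x hx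
          have := gauss_sub (l := 0) ⟨0, 0, 0, 0, by ext <;> simp⟩ hx
          rwa [zero_sub] at this }
    exact main2 L (fun _ h => h) ⟨1, one_ne_zero, fun z hz => by rw [one_smul]; exact hz⟩
      (pullF L _ F) (pullF_positive L _ hp) (pullF_convex L _ hc)
  · intro H hG
    exact h _ hm (min_le_left _ _) L hk (famH H hG)

end Vale.Agent.P296.H599
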