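import Vale.Agent.P296.Bdl.B1

/-!
# P296 (H599): the bundle carries no continuous family of norms of negative curvature
-/

namespace Vale.Agent.P296.H599

open Complex Matrix Theta Filter Topology Glue
open scoped ContDiff ComplexOrder

/-- a continuous family of norms on the dual bundle, whose values along nowhere zero holomorphic
sections over complex lines have no local maximum -/
structure NFam (ε : ℝ) where
  N : Fin 3 → (Fin 2 → ℂ) → (Fin 2 → ℂ) → ℝ
  cont : ∀ i, ContinuousOn (fun p : (Fin 2 → ℂ) × (Fin 2 → ℂ) => N i p.1 p.2) {p | p.1 ∈ Uset i}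
  add : ∀ i, ∀ z ∈ Uset i, ∀ u v, N i z (u + v) ≤ N i z u + N i z v
  smul : ∀ i, ∀ z ∈ Uset i, ∀ (c : ℂ) u, N i z (c • u) = ‖c‖ * N i z u
  pos : ∀ i, ∀ z ∈ Uset i, ∀ u, u ≠ 0 → 0 < N i z u
  compat : ∀ i j, ∀ l ∈ gaussLattice 2, ∀ z ∈ Uset j, z + l ∈ Uset i → ∀ u,
    N j z (u ᵥ* gmat ε i j l z) = N i (z + l) u
  nlm : ∀ i, ∀ z ∈ Uset i, ∀ (ξ : Fin 2 → ℂ) (u : ℂ → Fin 2 → ℂ), ξ ≠ 0 →
    (∀ a, AnalyticAt ℂ (fun ζ => u ζ a) 0) → u 0 ≠ 0 →
    ¬ IsLocalMax (fun ζ : ℂ => N i (z + ζ • ξ) (u ζ)) 0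

variable {ε : ℝ} (hε : 0 < ε) (H : NFam ε)

/-- norm of the factor of automorphy -/
theorem norm_eAut_half (k : Fin 2) (l z : Fin 2 → ℂ) : ‖eAut (sg k) l z‖ =
    Real.exp (phi (sg k) (z + l) / 2 - phi (sg k) z / 2) := by
  have h1 := norm_eAut (sg k) l z
  have h2 : ‖eAut (sg k) l z‖ = Real.sqrt (‖eAut (sg k) l z‖ ^ 2) :=
    (Real.sqrt_sq (norm_nonneg _)).symm
  rw [h2, h1, ← sub_div, Real.exp_half]

/-- normalised length of `v_k` computed in chart `i` at the point `y` -/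
noncomputable def NN (k : Fin 2) (i : Fin 3) (y : Fin 2 → ℂ) : ℝ :=
  H.N i y (Wm ε i y k) * Real.exp (-(phi (sg k) y / 2))

include hε in
theorem NN_compat (k : Fin 2) (i j : Fin 3) {l z : Fin 2 → ℂ} (hl : l ∈ gaussLattice 2)
    (hz : z ∈ Uset j) (hzl : z + l ∈ Uset i) : NN H k i (z + l) = NN H k j z := by
  have h2 := H.compat i j l hl z hz hzl (Wm ε i (z + l) k)
  have h3 : Wm ε i (z + l) k ᵥ* gmat ε i j l z = eAut (sg k) l z • Wm ε j z k := by
    rw [← Dm_row, ← gmat_rel hε i j hl hz hzl]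
    rfl
  unfold NN
  rw [← h2, h3, H.smul j z hz, norm_eAut_half, mul_right_comm, ← Real.exp_add, mul_comm]
  congr 2
  ring

include hε in
theorem NN_indep (k : Fin 2) (i j : Fin 3) {l m z : Fin 2 → ℂ} (hl : l ∈ gaussLattice 2)
    (hm : m ∈ gaussLattice 2) (hzm : z + m ∈ Uset j) (hzl : z + l ∈ Uset i) :
    NN H k i (z + l) = NN H k j (z + m) := by
  have h := NN_compat hε H k i j (l := l - m) (z := z + m) (sub_mem hl hm) hzm
    (by rw [add_assoc, add_sub_cancel]; exact hzl)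
  rwa [add_assoc, add_sub_cancel] at h

/-- global normalised length of `v_k` -/
noncomputable def Ng (k : Fin 2) (z : Fin 2 → ℂ) : ℝ :=
  NN H k (Bdl.cover z).choose (z + (Bdl.cover z).choose_spec.choose)

include hε in
theorem Ng_eq (k : Fin 2) {i : Fin 3} {l z : Fin 2 → ℂ} (hl : l ∈ gaussLattice 2)
    (hzl : z + l ∈ Uset i) : Ng H k z = NN H k i (z + l) :=
  NN_indep hε H k _ _ (Bdl.cover z).choose_spec.choose_spec.1 hl hzl
    (Bdl.cover z).choose_spec.choose_spec.2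

/-- the norm on the fibre coordinates in chart `i` -/
noncomputable def nn (i : Fin 3) (x u : ℂ × ℂ) : ℝ := H.N i (zz x) (zz u)

/-- the two functions of the core statement -/
noncomputable def ff (k : Fin 2) (x : ℂ × ℂ) : ℝ := Ng H k (zz x)

include hε in
theorem NN_pos (k : Fin 2) {i : Fin 3} {y : Fin 2 → ℂ} (hy : y ∈ Uset i) : 0 < NN H k i y :=
  mul_pos (H.pos i y hy _ (row_ne_zero hε i y k)) (Real.exp_pos _)

include hε in
theorem ff_pos (k : Fin 2) (x : ℂ × ℂ) : 0 < ff H k x := by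
  obtain ⟨i, l, hl, hzl⟩ := Bdl.cover (zz x)
  unfold ff
  rw [Ng_eq hε H k hl hzl]
  exact NN_pos hε H k hzl

include hε in
theorem continuous_ff (k : Fin 2) : Continuous (ff H k) := by
  rw [continuous_iff_continuousAt]
  intro x0
  obtain ⟨i, l, hl, hzl⟩ := Bdl.cover (zz x0)
  have hopen : ∀ᶠ x in 𝓝 x0, zz x + l ∈ Uset i :=
    (continuous_zz.add continuous_const).continuousAt.eventually
      ((Bdl.isOpen_Uset i).mem_nhds hzl)
  have heq : ff H k =ᶠ[𝓝 x0] fun x => NN H k i (zz x + l) := by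
    filter_upwards [hopen] with x hx
    unfold ff
    rw [Ng_eq hε H k hl hx]
  refine ContinuousAt.congr ?_ heq.symm
  unfold NN
  refine ContinuousAt.mul ?_ ?_
  · have h1 : ContinuousAt (fun p : (Fin 2 → ℂ) × (Fin 2 → ℂ) => H.N i p.1 p.2)
        (zz x0 + l, Wm ε i (zz x0 + l) k) :=
      (H.cont i).continuousAt
        (((Bdl.isOpen_Uset i).preimage continuous_fst).mem_nhds hzl)
    have h2 : ContinuousAt (fun x : ℂ × ℂ => ((zz x + l, Wm ε i (zz x + l) k) :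
        (Fin 2 → ℂ) × (Fin 2 → ℂ))) x0 :=
      ((continuous_zz.add continuous_const).prodMk
        ((continuous_Wm i k).comp (continuous_zz.add continuous_const))).continuousAt
    exact ContinuousAt.comp (g := fun p : (Fin 2 → ℂ) × (Fin 2 → ℂ) => H.N i p.1 p.2)
      (f := fun x : ℂ × ℂ => ((zz x + l, Wm ε i (zz x + l) k) : (Fin 2 → ℂ) × (Fin 2 → ℂ))) h1 h2
  · exact (Real.continuous_exp.comp
      (((continuous_phi _).comp (continuous_zz.add continuous_const)).div_const 2).neg).continuousAt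

include hε in
theorem ff_periodic (k : Fin 2) (x γ : ℂ × ℂ) (h1 : IsLat γ.1) (h2 : IsLat γ.2) :
    ff H k (x + γ) = ff H k x := by
  have hγ : zz γ ∈ gaussLattice 2 := by
    intro a
    fin_cases a
    · exact h1
    · exact h2
  obtain ⟨i, l, hl, hzl⟩ := Bdl.cover (zz (x + γ))
  unfold ff
  rw [Ng_eq hε H k hl hzl]
  rw [zz_add, add_assoc] at hzl ⊢
  rw [Ng_eq hε H k (add_mem hγ hl) hzl]

theorem isNrm_nn {i : Fin 3} {x : ℂ × ℂ} (hx : zz x ∈ Uset i) : NoG.IsNrm (nn H i x) := by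
  refine ⟨fun v w => ?_, fun c v => ?_, fun v hv => ?_⟩
  · unfold nn
    rw [zz_add]
    exact H.add i _ hx _ _
  · unfold nn
    rw [zz_smul]
    exact H.smul i _ hx _ _
  · exact H.pos i _ hx _ (zz_ne_zero hv)

theorem continuousOn_nn (i : Fin 3) :
    ContinuousOn (fun p : (ℂ × ℂ) × (ℂ × ℂ) => nn H i p.1 p.2) {p | zz p.1 ∈ Uset i} := by
  unfold nn
  refine (H.cont i).comp
    (f := fun p : (ℂ × ℂ) × (ℂ × ℂ) => ((zz p.1, zz p.2) : (Fin 2 → ℂ) × (Fin 2 → ℂ))) ?_ ?_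
  · exact ((continuous_zz.comp continuous_fst).prodMk
      (continuous_zz.comp continuous_snd)).continuousOn
  · intro p hp
    exact hp

theorem nlm_nn {i : Fin 3} {x : ℂ × ℂ} (hx : zz x ∈ Uset i) :
    NoG.NLM (nn H i) x := by
  intro w a b hw ha hb hab hmax
  refine H.nlm i _ hx (zz w) (fun ζ => zz (a ζ, b ζ)) (zz_ne_zero hw) ?_ (zz_ne_zero hab) ?_
  · intro k
    fin_cases k
    · exact ha
    · exact hb
  · have h1 : (fun ζ : ℂ => nn H i (x + ζ • w) (a ζ, b ζ)) =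
        fun ζ => H.N i (zz x + ζ • zz w) (zz (a ζ, b ζ)) := by
      funext ζ
      unfold nn
      rw [zz_add, zz_smul]
    rwa [h1] at hmax

include hε in
theorem link (k : Fin 2) {i : Fin 3} {x : ℂ × ℂ} (hx : zz x ∈ Uset i) :
    H.N i (zz x) (Wm ε i (zz x) k) = ff H k x * Real.exp (NoG.phi (sg k) x / 2) := by
  unfold ff
  rw [Ng_eq hε H k (zero_mem _) (by rw [add_zero]; exact hx), add_zero, phi_zz]
  unfold NN
  rw [mul_assoc, ← Real.exp_add, neg_add_cancel, Real.exp_zero, mul_one]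

include hε in
theorem nomax (k : Fin 2) (x w : ℂ × ℂ) (hw : w ≠ 0) (G : ℂ → ℂ)
    (hGa : AnalyticAt ℂ G 0) :
    ¬ IsLocalMax (fun ζ : ℂ => ff H k (x + ζ • w) *
      Real.exp (NoG.phi (sg k) (x + ζ • w) / 2) * Real.exp ((G ζ).re)) 0 := by
  obtain ⟨i, l, hl, hzl⟩ := Bdl.cover (zz x)
  intro hmax
  set y : ℂ → (Fin 2 → ℂ) := fun ζ => zz x + ζ • zz w with hy
  set u : ℂ → (Fin 2 → ℂ) := fun ζ =>
    (exp (G ζ) * (eAut (sg k) l (y ζ))⁻¹) • Wm ε i (y ζ + l) k with hu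
  have hyc : Continuous y := by fun_prop
  have hev : ∀ᶠ ζ in 𝓝 (0 : ℂ), y ζ + l ∈ Uset i := by
    apply (hyc.add continuous_const).continuousAt.eventually
    apply (Bdl.isOpen_Uset i).mem_nhds
    simpa [hy] using hzl
  have hform : ∀ ζ : ℂ, y ζ + l ∈ Uset i → ff H k (x + ζ • w) *
      Real.exp (NoG.phi (sg k) (x + ζ • w) / 2) * Real.exp ((G ζ).re) =
      H.N i (zz x + l + ζ • zz w) (u ζ) := by
    intro ζ hζ
    have e1 : zz (x + ζ • w) = y ζ := by rw [zz_add, zz_smul]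
    have e2 : zz x + l + ζ • zz w = y ζ + l := by
      simp only [hy]; abel
    rw [phi_zz, e1, e2, hu]
    simp only
    rw [H.smul i _ hζ, norm_mul, norm_inv, norm_eAut_half, Complex.norm_exp]
    unfold ff
    rw [e1, Ng_eq hε H k hl hζ]
    unfold NN
    rw [← Real.exp_neg, ← Real.exp_add,
      mul_assoc (H.N i _ _), ← Real.exp_add, mul_assoc (H.N i _ _), ← Real.exp_add, mul_comm]
    congr 2
    ring
  refine H.nlm i _ hzl (zz w) u (zz_ne_zero hw) ?_ ?_ ?_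
  · intro a
    have hya : ∀ b, AnalyticAt ℂ (fun ζ => y ζ b) 0 := by
      intro b
      simp only [hy, Pi.add_apply, Pi.smul_apply, smul_eq_mul]
      fun_prop
    have h1 : AnalyticAt ℂ (fun ζ => exp (G ζ)) 0 := hGa.cexp
    have h2 : AnalyticAt ℂ (fun ζ => eAut (sg k) l (y ζ)) 0 := by
      unfold eAut
      have := hya 0
      have := hya 1
      fun_prop
    have h3 : AnalyticAt ℂ (fun ζ => (eAut (sg k) l (y ζ))⁻¹) 0 :=
      h2.inv (Bdl.eAut_ne_zero _ _ _)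
    have h4 : AnalyticAt ℂ (fun ζ => Wm ε i (y ζ + l) k a) 0 := by
      have := hya 0
      fin_cases i <;> fin_cases k <;> fin_cases a <;>
        simp [Bdl.Wm_zero, Bdl.Wm_one, Bdl.Wm_two] <;> fun_prop
    exact (h1.mul h3).mul h4
  · simp only [hu]
    exact smul_ne_zero (mul_ne_zero (exp_ne_zero _) (inv_ne_zero (Bdl.eAut_ne_zero _ _ _)))
      (row_ne_zero hε i _ k)
  · have h0 : y 0 + l ∈ Uset i := hev.self_of_nhds
    filter_upwards [hmax, hev] with ζ h1 h2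
    rw [← hform ζ h2, ← hform 0 h0]
    exact h1

include hε in
theorem data : NoG.NoGData ε (ff H 0) (ff H 1) (nn H 1) (nn H 2) where
  cont1 := continuous_ff hε H 0
  cont2 := continuous_ff hε H 1
  pos1 := ff_pos hε H 0
  pos2 := ff_pos hε H 1
  per1 := ff_periodic hε H 0
  per2 := ff_periodic hε H 1
  nrm1 := fun x hx => isNrm_nn H (i := 1) hx
  nrm2 := fun x hx => isNrm_nn H (i := 2) hx
  nc1 := continuousOn_nn H 1
  nc2 := continuousOn_nn H 2
  nlm1 := fun x hx => nlm_nn H (i := 1) hx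
  nlm2 := fun x hx => nlm_nn H (i := 2) hx
  link1a := fun x hx => link hε H 0 (i := 1) hx
  link1b := fun x hx => link hε H 1 (i := 1) hx
  link2a := fun x hx => link hε H 1 (i := 2) hx
  link2b := fun x hx => link hε H 0 (i := 2) hx
  max1 := fun x _ G hGa => nomax hε H 0 x (4, -3) (by simp) G hGa
  max2 := fun x _ G hGa => nomax hε H 1 x (4, 3) (by simp) G hGa

/-- **The bundle has no such family of norms for small `ε`.** -/
theorem no_nfam : ∃ ε₀ : ℝ, 0 < ε₀ ∧ ∀ ε : ℝ, 0 < ε → ε ≤ ε₀ → NFam ε → False := by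
  obtain ⟨ε₀, h0, h⟩ := NoG.nog_core
  exact ⟨ε₀, h0, fun ε hε hle H => h ε hε hle _ _ _ _ (data hε H)⟩

end Vale.Agent.P296.H599
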